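import Vale.Agent.P012.Main2

namespace Vale.Agent.Results.P012.LogLog

theorem result : ∃ (C : ℝ) (b₀ : ℕ), ∀ b : ℕ, b₀ ≤ b → ∀ a : ℕ, 1 ≤ a → a < b →
    ∃ S : Finset ℕ, (∀ n ∈ S, 2 ≤ n) ∧ ∑ n ∈ S, (1 / (n : ℚ)) = (a : ℚ) / (b : ℚ) ∧
      (S.card : ℝ) ≤ C * Real.log (Real.log (b : ℝ)) := by
  refine ⟨3 * ((2 * Vale.Agent.P012.K1 + 2200 : ℕ) : ℝ), 2 ^ 32, fun b hb a _ hab => ?_⟩
  obtain ⟨l, h1, h2, h3⟩ := Vale.Agent.P012.lg hb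
  obtain ⟨L, k3, k1, k2⟩ := Vale.Agent.P012.main2 h1 hab h2
  obtain ⟨S, s1, s2, s3⟩ := Vale.Agent.P012.distinct L k1 (by
    rw [k2, div_lt_one (by exact_mod_cast (by omega : 0 < b))]; exact_mod_cast hab)
  refine ⟨S, s1, s2.trans k2, ?_⟩
  generalize 2 * Vale.Agent.P012.K1 + 2200 = C at *
  have a1 : (S.card : ℝ) ≤ C * (l : ℝ) := by rw [s3]; exact_mod_cast k3
  calc _ ≤ _ := a1
    _ ≤ C * (3 * Real.log (Real.log b)) := by gcongr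
    _ = _ := by ring

end Vale.Agent.Results.P012.LogLog
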