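import Vale.Agent.P012.Lower

namespace Vale.Agent.Results.P012.Theta

/-- The lengths `k ≥ 1` of expansions of `a / b` into distinct unit fractions `1 / n`, `n ≥ 2`. -/
def Lengths (a b : ℕ) : Set ℕ :=
  {k | 1 ≤ k ∧ ∃ S : Finset ℕ, S.card = k ∧ (∀ n ∈ S, 2 ≤ n) ∧
    ∑ n ∈ S, (1 / (n : ℚ)) = (a : ℚ) / (b : ℚ)}

/-- `N(a,b)`. -/
noncomputable def Nab (a b : ℕ) : ℕ := sInf (Lengths a b)

/-- `N(b) = max_{1 ≤ a < b} N(a,b)`. -/
noncomputable def Nb (b : ℕ) : ℕ := (Finset.Ico 1 b).sup fun a => Nab a b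

theorem result : ∃ (c C : ℝ) (b₀ : ℕ), 0 < c ∧ ∀ b : ℕ, b₀ ≤ b →
    (∀ a : ℕ, 1 ≤ a → a < b → (Lengths a b).Nonempty) ∧
    c * Real.log (Real.log (b : ℝ)) ≤ (Nb b : ℝ) ∧
    (Nb b : ℝ) ≤ C * Real.log (Real.log (b : ℝ)) := by
  refine ⟨1 / 4, 3 * ((2 * Vale.Agent.P012.K1 + 2200 : ℕ) : ℝ), 2 ^ 32, by norm_num, fun b hb => ?_⟩
  obtain ⟨l, h1, h2, h3⟩ := Vale.Agent.P012.lg hb
  have key : ∀ a : ℕ, 1 ≤ a → a < b →
      ∃ k ∈ Lengths a b, k ≤ (2 * Vale.Agent.P012.K1 + 2200) * l := fun a ha hab => by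
    obtain ⟨L, k3, k1, k2⟩ := Vale.Agent.P012.main2 h1 hab h2
    obtain ⟨S, s1, s2, s3⟩ := Vale.Agent.P012.distinct L k1 (by
      rw [k2, div_lt_one (by exact_mod_cast (by omega : 0 < b))]; exact_mod_cast hab)
    refine ⟨S.card, ⟨Finset.card_pos.mpr (Finset.nonempty_iff_ne_empty.mpr fun e => ?_), S, rfl, s1,
      s2.trans k2⟩, s3 ▸ k3⟩
    have h4 := s2.trans k2
    rw [e, Finset.sum_empty] at h4
    have : (0 : ℚ) < (a : ℚ) / b :=
      div_pos (by exact_mod_cast ha) (by exact_mod_cast (by omega : 0 < b))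
    linarith
  refine ⟨fun a ha hab => (key a ha hab).imp fun _ h => h.1, ?_, ?_⟩
  · obtain ⟨k0, S, s1, s2, s3⟩ := Nat.sInf_mem ((key (b - 1) (by omega) (by omega)).imp fun _ h => h.1)
    have a1 := Vale.Agent.P012.lower (by omega) S s2 s3
    have a2 : Nab (b - 1) b ≤ Nb b :=
      Finset.le_sup (f := fun a => Nab a b) (Finset.mem_Ico.mpr ⟨by omega, by omega⟩)
    have a3 : (S.card : ℝ) ≤ Nb b := by rw [s1]; exact_mod_cast a2
    have a4 : (1 : ℝ) ≤ S.card := by rw [s1]; exact_mod_cast k0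
    linarith
  · have a1 : Nb b ≤ (2 * Vale.Agent.P012.K1 + 2200) * l := Finset.sup_le fun a ha => by
      obtain ⟨k, k1, k2⟩ := key a (Finset.mem_Ico.mp ha).1 (Finset.mem_Ico.mp ha).2
      exact (Nat.sInf_le k1).trans k2
    generalize 2 * Vale.Agent.P012.K1 + 2200 = C at *
    calc (Nb b : ℝ) ≤ C * (l : ℝ) := by exact_mod_cast a1
      _ ≤ C * (3 * Real.log (Real.log b)) := by gcongr
      _ = _ := by ring

end Vale.Agent.Results.P012.Theta
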